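import Vale.Agent.P277W49.Zb
import Vale.Agent.P277Z.St.First

/-!
# P277W: the rows IMG, SURJ, THIN
-/

open scoped Manifold ContDiff Topology
open Set Filter Function
open Vale.Agent.P272.K Vale.Agent.P277 Vale.Agent.P277Z Vale.Agent.P277Z.St Vale.Agent.P277Z.Val
open Vale.Agent.P277Z.St.Pr

noncomputable section

namespace Vale.Agent.P277W49

theorem an_img {V : Lg} {X : CSp} {q : V.W → X.pt} (hq : Pj.HolTo 4 X q) (l : Fin V.r) :
    IsAn X univ (q '' V.G l) :=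
  P285WB.remx 4 ⟨V.W⟩ X q _ ⟨hq.cont, hq.hol⟩ (U.isAnAt_G V l)

theorem prime_img {V : Lg} {X : CSp} {q : V.W → X.pt} (hq : Pj.HolTo 4 X q) (l : Fin V.r)
    (h : ¬ DimLe X 2 (q '' V.G l)) : IsPrime X (q '' V.G l) :=
  ⟨an_img hq l, fun _ _ => irr_img hq l, dim_img hq (thin_G V l), h⟩

theorem holTo_comp {V : Lg} {X Y : CSp} {q : V.W → X.pt} {f : X.pt → Y.pt} (hq : Pj.HolTo 4 X q)
    (hf : ∀ x, HolMap X Y f x) : Pj.HolTo 4 Y fun w => f (q w) :=
  ⟨(continuous_iff_continuousAt.2 fun x => (hf x).1).comp hq.cont,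
    fun w g hg => hq.hol w _ ((hf _).2 g hg)⟩

variable (h0 : GH.StRes0) (h1 : GH.StPrin) (h2 : GH.StComp)

include h0 h1 h2

/-- a prime divisor is the image of a component of a log resolution -/
theorem exists_comp {X : CSp} (hX : IsNormal 4 X) {E : Set X.pt} (hE : IsPrime X E) :
    ∃ (V : Lg) (p : V.W → X.pt) (l : Fin V.r), Pj.HolTo 4 X p ∧ E = p '' V.G l := by
  obtain ⟨V, p, exc, hr, k⟩ := logres_of h0 h1 h2 GH.fam X hX E hE.an
    (dense_compl_of_dimLe (by norm_num) hX.dense hE.dim)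
  obtain ⟨l, hl⟩ := prime_eq (res_hol hr) (an_img (res_hol hr)) hE fun x hx => by
    obtain ⟨y, rfl⟩ := hr.surj x
    exact ⟨y, k y hx, rfl⟩
  exact ⟨V, p, l, res_hol hr, hl⟩

/-- **THIN** -/
theorem thin_of : P277W.THIN := by
  intro X E T hX hE hT hn
  obtain ⟨V, p, l, hp, rfl⟩ := exists_comp h0 h1 h2 hX hE
  refine (dim_img hp (thin_an (anAt_pre hp hT) (mt image_subset_iff.2 hn))).mono ?_
  rintro _ ⟨⟨y, hy, rfl⟩, k⟩
  exact ⟨y, ⟨hy, k⟩, rfl⟩

/-- **IMG** -/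
theorem img_of : P277W.IMG := by
  intro X Y f E hX hf hE hn
  obtain ⟨V, p, l, hp, rfl⟩ := exists_comp h0 h1 h2 hX hE
  rw [image_image] at hn ⊢
  exact prime_img (holTo_comp hp hf) l hn

/-- **SURJ** -/
theorem surj_of : P277W.SURJ := by
  intro X Y f A D hX hY h hD
  have hf : ∀ x, HolMap X Y f x := fun x => ⟨h.cont.continuousAt, h.holo x⟩
  obtain ⟨V, p, exc, hr, k⟩ := logres_of h0 h1 h2 GH.fam X hX (f ⁻¹' D) (hD.an.preimage hf)
    (Fst.bim_dense h (dense_compl_of_dimLe (by norm_num) hY.dense hD.dim))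
  have hq := holTo_comp (res_hol hr) hf
  obtain ⟨l, hl⟩ := prime_eq hq (an_img hq) hD fun z hz => by
    obtain ⟨x, rfl⟩ := h.surj z
    obtain ⟨y, rfl⟩ := hr.surj x
    exact ⟨y, k y hz, rfl⟩
  have e : f '' (p '' V.G l) = D := by rw [image_image, hl]
  exact ⟨_, prime_img (res_hol hr) l fun c => hD.dim' (e ▸ c.image fun x _ => hf x), e⟩

end Vale.Agent.P277W49
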