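import Vale.Agent.P277W38.Nrm
import Vale.Agent.P285WB.Zar
import Vale.Agent.P277Z.St.Prime

/-!
# P277W: the row ZB
-/

open scoped Manifold ContDiff Topology
open Set Filter Function
open Vale.Agent.P272.K Vale.Agent.P277 Vale.Agent.P281Z Vale.Agent.P277Z.Pj
open Vale.Agent.P277Z.St (IsBim)
open Vale.Agent.P277Z.Glc (eq_of_closure riem_normal)
open Vale.Agent.P285KS (Bm HX)

noncomputable section

namespace Vale.Agent.P277W49

/-- functions which are holomorphic along a fibre descend to a normal space -/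
theorem stein_of {V : Mf 4} {Y : CSp} {μ : V.X → Y.pt} {Z : Set Y.pt} (hY : IsNormal 4 Y)
    (hb : Bm 4 Y μ Z) : Stein 4 Y μ := by
  refine ⟨⟨hb.cont, hb.hol⟩, hb.surj, fun y h hh => ?_⟩
  choose σ hσ using hb.surj
  have hc := hb.cont.isClosedMap
  obtain ⟨O, o1, o2, o3⟩ := eventually_nhds_iff.1 (hc.eventually_nhds_fiber y fun w hw =>
    (Dn.holF_open (m := 4) h).eventually_mem (hh w hw))
  obtain ⟨G, g1, g2⟩ := riem_normal hY (E := Z) (f := fun x => h (σ x)) o2
    (hb.an.mono (subset_univ _)) (fun x _ => hb.denseX x) (fun x hx => by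
      obtain ⟨w, rfl⟩ := hb.surj x
      exact hb.down hσ hx.2 (o1 _ hx.1 w rfl)) (fun x hx => by
      have hK : IsCompact (μ ⁻¹' {x}) := (isClosed_singleton.preimage hb.cont).isCompact
      obtain ⟨C, hC⟩ := hK.exists_bound_of_continuousOn (f := h) fun w hw =>
        (holF_cont (o1 x hx w hw)).continuousWithinAt
      refine ⟨C + 1, (hc.eventually_nhds_fiber (p := fun w => ‖h w‖ ≤ C + 1) x fun w hw => ?_).mono
        fun x' a _ => a _ (hσ x')⟩
      exact ((holF_cont (o1 x hx w hw)).norm.eventually_lt_const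
        ((hC w hw).trans_lt (lt_add_one C))).mono fun _ a => a.le)
  refine ⟨G, g1 y o3, fun w hw => ?_⟩
  have k : ∀ᶠ v in 𝓝 w, μ v ∈ O := hb.cont.continuousAt.eventually (o2.mem_nhds (hw ▸ o3))
  filter_upwards [k, k.eventually_nhds] with v a b
  refine eq_of_closure (g := fun v => G (μ v)) (hb.dense v) (holF_cont (o1 _ a v rfl))
    ((hol_continuousAt (g1 _ a)).comp hb.cont.continuousAt) (b.mono fun u s t => ?_)
  rw [g2 _ ⟨s, t⟩, hb.inj u _ t (hσ _)]

/-- **ZB** -/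
theorem zb : P277W.ZB := by
  intro X Y f A hX hY h
  have hf : ∀ x, HolMap X Y f x := fun x => ⟨h.cont.continuousAt, h.holo x⟩
  have a1 := P277Z.Glc.sing_an hX.dense
  have a2 : IsAn X univ (f ⁻¹' A) := h.an.preimage hf
  have a3 := P277Z.St.Pr.an_union a1 a2
  obtain ⟨V, r, hr⟩ := P277W.res_bm (n := 4) (by norm_num) a3 (by
    rw [compl_union]
    exact (hX.dense.mono fun _ a b => b a).inter_of_isOpen_right h.dense
      (isClosed_of_isAn a2).isOpen_compl) fun x a => not_not.1 fun b => a (.inl b)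
  set B := {x | ¬ IsReg 4 X x} ∪ f ⁻¹' A with hB
  have hx : HX 4 Y fun w => f (r w) :=
    ⟨h.cont.comp hr.cont, fun w g hg => hr.hol w _ (h.holo _ g hg)⟩
  have b1 : ∀ w, f (r w) ∈ (fun w => f (r w)) '' (r ⁻¹' B) ↔ r w ∈ B := fun w =>
    ⟨fun ⟨w', c, e⟩ => by_contra fun k =>
      k (h.inj (r w) (r w') (fun j => k (.inr j)) e ▸ c), fun c => ⟨w, c, rfl⟩⟩
  have hb : Bm 4 Y (fun w => f (r w)) ((fun w => f (r w)) '' (r ⁻¹' B)) := by
    refine ⟨hx, h.surj.comp hr.surj, P285WB.remx 4 V Y _ _ hx fun w => ?_,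
      hr.dense.mono fun w (c : r w ∉ B) e => c ((b1 w).1 e), fun w w' c e => ?_, fun w g c hg => ?_⟩
    · obtain ⟨k, g, g1, g2⟩ := a3 (r w) trivial
      exact ⟨k, fun i v => g i (r v), fun i => hr.hol w _ (g1 i),
        hr.cont.continuousAt.eventually g2⟩
    · have c' := mt (b1 w).2 c
      exact hr.inj w w' c' (h.inj _ _ (fun j => c' (.inr j)) e)
    · have c' := mt (b1 w).2 c
      obtain ⟨g₁, k1, k2⟩ := hr.iso w g c' hg
      obtain ⟨g₂, k3, k4⟩ := h.iso (r w) g₁ (fun j => c' (.inr j)) k1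
      exact ⟨g₂, k3, k2.trans (hr.cont.continuousAt.eventually k4)⟩
  have : Nonempty V.X := hX.sing.nonempty.elim fun x => ⟨(hr.surj x).choose⟩
  obtain ⟨Z, z1, -, -, z2⟩ := P285WB.zar 3 V Y _ _ hb (stein_of hY hb)
  refine ⟨Z, ⟨h.cont, h.holo, h.surj, z1.an,
    (hr.surj.denseRange.dense_image hr.cont z1.dense).mono ?_, fun x x' c e => ?_,
    fun x g c hg => ?_⟩, z2⟩
  · rintro _ ⟨w, c, rfl⟩
    exact c
  · obtain ⟨w, rfl⟩ := hr.surj x
    obtain ⟨w', rfl⟩ := hr.surj x'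
    rw [z1.inj w w' c e]
  · obtain ⟨w, rfl⟩ := hr.surj x
    obtain ⟨G, k1, k2⟩ := z1.iso w _ c (hr.hol w g hg)
    refine ⟨G, k1, (hr.cont.isClosedMap.eventually_nhds_fiber
      (p := fun v => g (r v) = G (f (r v))) (r w) fun v hv => ?_).mono fun x a => ?_⟩
    · rw [z1.inj w v c (congrArg f hv)]
      exact k2
    · obtain ⟨v, rfl⟩ := hr.surj x
      exact a v rfl

end Vale.Agent.P277W49
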